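import Mathlib
import Crest.Prelude.Def_TruncExpWeight

-- ▼ part R280/Basic
section

set_option autoImplicit false

open MeasureTheory Set Filter Topology

namespace Crest.Agent.R280

/-- The mean-one exponential law on the line. -/
noncomputable def nu : Measure ℝ :=
  (volume.restrict (Ioi (0:ℝ))).withDensity (fun x => ENNReal.ofReal (Real.exp (-x)))

lemma measurable_dens : Measurable (fun x : ℝ => ENNReal.ofReal (Real.exp (-x))) := by
  fun_prop

lemma integral_nu (f : ℝ → ℝ) : ∫ x, f x ∂nu = ∫ x in Ioi (0:ℝ), Real.exp (-x) * f x := by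
  unfold nu
  rw [integral_withDensity_eq_integral_toReal_smul measurable_dens (by simp)]
  simp [ENNReal.toReal_ofReal (Real.exp_pos _).le]

lemma integrable_nu_iff (f : ℝ → ℝ) :
    Integrable f nu ↔ IntegrableOn (fun x => Real.exp (-x) * f x) (Ioi (0:ℝ)) := by
  unfold nu IntegrableOn
  rw [integrable_withDensity_iff_integrable_smul' measurable_dens (by simp)]
  simp [ENNReal.toReal_ofReal (Real.exp_pos _).le]

instance : IsProbabilityMeasure nu := by
  constructor
  have h : nu univ = ∫⁻ x in Ioi (0:ℝ), ENNReal.ofReal (Real.exp (-x)) := by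
    unfold nu; rw [withDensity_apply _ MeasurableSet.univ]; simp
  rw [h, ← ofReal_integral_eq_lintegral_ofReal (integrableOn_exp_neg_Ioi 0)
    (Eventually.of_forall fun x => (Real.exp_pos _).le), integral_exp_neg_Ioi_zero]
  simp

lemma hasDerivAt_id_exp (x : ℝ) :
    HasDerivAt (fun x : ℝ => -((x + 1) * Real.exp (-x))) (Real.exp (-x) * x) x := by
  have h1 : HasDerivAt (fun x : ℝ => Real.exp (-x)) (-Real.exp (-x)) x := by
    simpa using ((hasDerivAt_id x).neg).exp
  have h2 := ((((hasDerivAt_id x).add_const 1).mul h1).neg)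
  refine h2.congr_deriv ?_
  simp only [id]
  ring

lemma integrableOn_exp_mul_id : IntegrableOn (fun x : ℝ => Real.exp (-x) * x) (Ioi (0:ℝ)) := by
  have := Real.GammaIntegral_convergent (s := 2) (by norm_num)
  refine this.congr_fun (fun x hx => ?_) measurableSet_Ioi
  norm_num

lemma tendsto_id_exp : Tendsto (fun x : ℝ => -((x + 1) * Real.exp (-x))) atTop (𝓝 0) := by
  have h1 := Real.tendsto_pow_mul_exp_neg_atTop_nhds_zero 1
  have h0 := Real.tendsto_pow_mul_exp_neg_atTop_nhds_zero 0
  have := (h1.add h0).neg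
  simp only [pow_one, pow_zero, add_zero, neg_zero] at this
  refine this.congr (fun x => ?_)
  ring

lemma integrable_id_nu : Integrable (fun x : ℝ => x) nu := by
  rw [integrable_nu_iff]; exact integrableOn_exp_mul_id

lemma integral_id_nu : ∫ x, x ∂nu = 1 := by
  rw [integral_nu]
  rw [integral_Ioi_of_hasDerivAt_of_tendsto (f := fun x : ℝ => -((x + 1) * Real.exp (-x)))
    (m := 0) ?_ (fun x _ => hasDerivAt_id_exp x) integrableOn_exp_mul_id tendsto_id_exp]
  · simp
  · exact (hasDerivAt_id_exp 0).continuousAt.continuousWithinAt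

/-- The product of exponential laws as a density on the orthant. -/
lemma pi_nu (N : ℕ) :
    Measure.pi (fun _ : Fin N => nu) =
      (Measure.pi (fun _ : Fin N => volume.restrict (Ioi (0:ℝ)))).withDensity
        (fun x => ENNReal.ofReal (Real.exp (-∑ i, x i))) := by
  apply Measure.pi_eq
  intro s hs
  rw [withDensity_apply _ (MeasurableSet.univ_pi hs), Measure.restrict_pi_pi]
  have hint : ∀ i : Fin N, Integrable (fun x : ℝ => Real.exp (-x))
      ((volume.restrict (Ioi (0:ℝ))).restrict (s i)) := fun i =>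
    Integrable.mono_measure (integrableOn_exp_neg_Ioi 0) Measure.restrict_le_self
  have hprod : ∀ x : Fin N → ℝ, Real.exp (-∑ i, x i) = ∏ i, Real.exp (-x i) := by
    intro x; rw [← Finset.sum_neg_distrib, Real.exp_sum]
  have h1 : Integrable (fun x : Fin N → ℝ => ∏ i, Real.exp (-x i))
      (Measure.pi (fun i : Fin N => (volume.restrict (Ioi (0:ℝ))).restrict (s i))) :=
    Integrable.fintype_prod_dep (f := fun _ x => Real.exp (-x)) hint
  simp_rw [hprod]
  rw [← ofReal_integral_eq_lintegral_ofReal h1
    (Eventually.of_forall fun x => Finset.prod_nonneg fun i _ => (Real.exp_pos _).le)]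
  rw [integral_fintype_prod_eq_prod (f := fun _ x => Real.exp (-x))]
  rw [ENNReal.ofReal_prod_of_nonneg (fun i _ => integral_nonneg fun x => (Real.exp_pos _).le)]
  refine Finset.prod_congr rfl fun i _ => ?_
  unfold nu
  rw [withDensity_apply _ (hs i)]
  rw [ofReal_integral_eq_lintegral_ofReal (hint i)
    (Eventually.of_forall fun x => (Real.exp_pos _).le)]

/-- The integral in the statement is an expectation. -/
lemma integral_orthant (N : ℕ) (f : (Fin N → ℝ) → ℝ) :
    ∫ x in Set.pi Set.univ (fun _ : Fin N => Set.Ioi (0 : ℝ)), f x * Real.exp (-∑ i, x i)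
      = ∫ x, f x ∂(Measure.pi (fun _ : Fin N => nu)) := by
  rw [pi_nu, volume_pi, Measure.restrict_pi_pi,
    integral_withDensity_eq_integral_toReal_smul (by fun_prop) (by simp)]
  refine integral_congr_ae (Eventually.of_forall fun x => ?_)
  simp [ENNReal.toReal_ofReal (Real.exp_pos _).le, mul_comm]

/-- One-step Fubini. -/
lemma integral_succ (N : ℕ) (f : (Fin (N+1) → ℝ) → ℝ)
    (hf : Integrable f (Measure.pi (fun _ : Fin (N+1) => nu))) :
    ∫ x, f x ∂(Measure.pi (fun _ : Fin (N+1) => nu)) =
      ∫ u, ∫ x, f (Fin.cons u x) ∂(Measure.pi (fun _ : Fin N => nu)) ∂nu := by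
  have mp := (measurePreserving_piFinSuccAbove (fun _ : Fin (N+1) => nu) 0).symm
  rw [← mp.integral_comp']
  rw [integral_prod]
  · refine integral_congr_ae (Eventually.of_forall fun u => ?_)
    refine integral_congr_ae (Eventually.of_forall fun x => ?_)
    simp only [MeasurableEquiv.piFinSuccAbove_symm_apply, Fin.insertNthEquiv, Equiv.coe_fn_mk,
      Fin.insertNth_zero]
    rfl
  · have := (mp.integrable_comp_emb (MeasurableEquiv.measurableEmbedding _)).2 hf
    exact this

end Crest.Agent.R280
end

-- ▼ part R280/LC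
section

set_option autoImplicit false

open MeasureTheory Set Filter Topology

namespace Crest.Agent.R280

lemma setIntegral_Ioi_shift (F : ℝ → ℝ) (c : ℝ) :
    ∫ x in Ioi c, F x = ∫ x in Ioi (0:ℝ), F (c + x) := by
  have mp := measurePreserving_add_left (volume : Measure ℝ) c
  have h := mp.setIntegral_preimage_emb (measurableEmbedding_addLeft c) F (Ioi c)
  rw [← h]
  congr 1
  simp


/-- splitting the exponential expectation at `c` -/
lemma integral_nu_split (φ : ℝ → ℝ) (hφ : Integrable φ nu) {c : ℝ} (hc : 0 ≤ c) :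
    ∫ u, φ u ∂nu = (∫ u in (0:ℝ)..c, Real.exp (-u) * φ u)
      + Real.exp (-c) * ∫ u, φ (c + u) ∂nu := by
  rw [integral_nu, integral_nu]
  have h1 := (integrable_nu_iff φ).1 hφ
  rw [← intervalIntegral.integral_interval_add_Ioi h1 (h1.mono_set (Ioi_subset_Ioi hc)),
    setIntegral_Ioi_shift, ← integral_const_mul]
  congr 1
  refine integral_congr_ae (Eventually.of_forall fun x => ?_)
  simp only
  rw [neg_add, Real.exp_add]; ring

structure Good (f : ℝ → ℝ) : Prop where
  lip : ∀ s t, |f s - f t| ≤ |s - t|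
  nonneg : ∀ t, 0 ≤ f t
  lc : ∀ x y h, y ≤ x → 0 ≤ h → f (x + h) * f y ≤ f x * f (y + h)

lemma Good.continuous {f : ℝ → ℝ} (hf : Good f) : Continuous f := by
  have : LipschitzWith 1 f := by
    apply LipschitzWith.of_dist_le_mul
    intro x y
    simpa [Real.dist_eq] using hf.lip x y
  exact this.continuous

lemma Good.integrable {f : ℝ → ℝ} (hf : Good f) (t b : ℝ) :
    Integrable (fun u => f (t + b * u)) nu := by
  have h1 : Integrable (fun u : ℝ => f t + |b| * |u|) nu :=
    (integrable_const _).add (integrable_id_nu.abs.const_mul _)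
  refine h1.mono' (hf.continuous.comp (by fun_prop)).aestronglyMeasurable
    (Eventually.of_forall fun u => ?_)
  rw [Real.norm_eq_abs, abs_of_nonneg (hf.nonneg _)]
  have := hf.lip (t + b * u) t
  have h2 := le_of_abs_le this
  rw [add_sub_cancel_left, abs_mul] at h2
  linarith

/-- averaging against an exponential variable -/
noncomputable def T (b : ℝ) (f : ℝ → ℝ) (t : ℝ) : ℝ := ∫ u, f (t + b * u) ∂nu

lemma T_nonneg {f : ℝ → ℝ} (hf : Good f) (b t : ℝ) : 0 ≤ T b f t :=
  integral_nonneg fun _ => hf.nonneg _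

lemma T_lip {f : ℝ → ℝ} (hf : Good f) (b s t : ℝ) : |T b f s - T b f t| ≤ |s - t| := by
  unfold T
  rw [← integral_sub (hf.integrable s b) (hf.integrable t b)]
  refine (abs_integral_le_integral_abs).trans ?_
  have : ∫ u, |f (s + b * u) - f (t + b * u)| ∂nu ≤ ∫ _u, |s - t| ∂nu := by
    refine integral_mono_of_nonneg (Eventually.of_forall fun _ => abs_nonneg _)
      (integrable_const _) (Eventually.of_forall fun u => ?_)
    have := hf.lip (s + b * u) (t + b * u)
    simpa using this
  simpa using this

/-- positive coefficient -/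
lemma T_lc_pos {f : ℝ → ℝ} (hf : Good f) {b : ℝ} (hb : 0 < b) (x y h : ℝ) (hyx : y ≤ x)
    (hh : 0 ≤ h) : T b f (x + h) * T b f y ≤ T b f x * T b f (y + h) := by
  set c := h / b with hc
  have hc0 : 0 ≤ c := div_nonneg hh hb.le
  have hbc : b * c = h := by rw [hc]; field_simp
  have split : ∀ z, T b f z = (∫ u in (0:ℝ)..c, Real.exp (-u) * f (z + b * u))
      + Real.exp (-c) * T b f (z + h) := by
    intro z
    unfold T
    rw [integral_nu_split _ (hf.integrable z b) hc0]
    congr 2
    refine integral_congr_ae (Eventually.of_forall fun u => ?_)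
    simp only
    congr 1
    rw [← hbc]; ring
  have ii : ∀ z, IntervalIntegrable (fun u => Real.exp (-u) * f (z + b * u)) volume 0 c := by
    intro z
    apply Continuous.intervalIntegrable
    exact (by fun_prop : Continuous fun u : ℝ => Real.exp (-u)).mul
      (hf.continuous.comp (by fun_prop))
  rw [split y, split x]
  have key : T b f (x + h) * (∫ u in (0:ℝ)..c, Real.exp (-u) * f (y + b * u)) ≤
      T b f (y + h) * (∫ u in (0:ℝ)..c, Real.exp (-u) * f (x + b * u)) := by
    rw [← intervalIntegral.integral_const_mul, ← intervalIntegral.integral_const_mul]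
    apply intervalIntegral.integral_mono_on hc0 ((ii y).const_mul _) ((ii x).const_mul _)
    intro u hu
    have hu0 : 0 ≤ b * u := mul_nonneg hb.le hu.1
    have huh : b * u ≤ h := by rw [← hbc]; exact mul_le_mul_of_nonneg_left hu.2 hb.le
    have e : ∀ A B : ℝ, A * (Real.exp (-u) * B) = Real.exp (-u) * (A * B) := by
      intro A B; ring
    rw [e, e]
    apply mul_le_mul_of_nonneg_left _ (Real.exp_pos _).le
    unfold T
    rw [← integral_mul_const, ← integral_mul_const]
    apply integral_mono_ae ((hf.integrable _ b).mul_const _) ((hf.integrable _ b).mul_const _)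
    have hpos : ∀ᵐ v ∂nu, 0 ≤ v := by
      unfold nu
      refine (withDensity_absolutelyContinuous _ _).ae_le ?_
      filter_upwards [ae_restrict_mem measurableSet_Ioi] with v hv using le_of_lt hv
    filter_upwards [hpos] with v hv
    have hv0 : 0 ≤ b * v := mul_nonneg hb.le hv
    have := hf.lc (y + h + b * v) (y + b * u) (x - y) (by linarith) (by linarith)
    have e1 : y + h + b * v + (x - y) = x + h + b * v := by ring
    have e2 : y + b * u + (x - y) = x + b * u := by ring
    rw [e1, e2] at this
    exact this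
  nlinarith [key]

lemma Good.reflect {f : ℝ → ℝ} (hf : Good f) : Good (fun t => f (-t)) where
  lip s t := by
    have := hf.lip (-s) (-t)
    rwa [show -s - -t = -(s - t) by ring, abs_neg] at this
  nonneg t := hf.nonneg _
  lc x y h hyx hh := by
    have := hf.lc (-y - h) (-x - h) h (by linarith) hh
    have e1 : -y - h + h = -y := by ring
    have e2 : -x - h + h = -x := by ring
    have e3 : -y - h = -(y + h) := by ring
    have e4 : -x - h = -(x + h) := by ring
    rw [e1, e2, e3, e4] at this
    linarith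

lemma T_lc {f : ℝ → ℝ} (hf : Good f) (b : ℝ) (x y h : ℝ) (hyx : y ≤ x)
    (hh : 0 ≤ h) : T b f (x + h) * T b f y ≤ T b f x * T b f (y + h) := by
  rcases lt_trichotomy b 0 with hb | hb | hb
  · have key : ∀ z, T b f z = T (-b) (fun t => f (-t)) (-z) := by
      intro z
      unfold T
      refine integral_congr_ae (Eventually.of_forall fun u => ?_)
      simp only
      congr 1; ring
    have := T_lc_pos hf.reflect (neg_pos.2 hb) (-y - h) (-x - h) h (by linarith) hh
    have e1 : -y - h + h = -y := by ring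
    have e2 : -x - h + h = -x := by ring
    have e3 : -y - h = -(y + h) := by ring
    have e4 : -x - h = -(x + h) := by ring
    rw [e1, e2, e3, e4, ← key, ← key, ← key, ← key] at this
    linarith
  · subst hb
    simp only [T, zero_mul, add_zero, integral_const, probReal_univ, smul_eq_mul, one_mul]
    exact hf.lc x y h hyx hh
  · exact T_lc_pos hf hb x y h hyx hh

lemma Good.T {f : ℝ → ℝ} (hf : Good f) (b : ℝ) : Good (T b f) where
  lip := T_lip hf b
  nonneg := T_nonneg hf b
  lc := T_lc hf b

lemma good_posPart : Good (fun t : ℝ => max t 0) where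
  lip s t := by
    rcases le_total s t with h | h
    · have h1 : max s 0 ≤ max t 0 := max_le_max_right 0 h
      have h2 : max t 0 ≤ max s 0 + (t - s) := by
        apply max_le
        · have := le_max_left s 0; linarith
        · have := le_max_right s 0; linarith
      rw [abs_sub_comm, abs_sub_comm s t, abs_of_nonneg (by linarith), abs_of_nonneg (by linarith)]
      linarith
    · have h1 : max t 0 ≤ max s 0 := max_le_max_right 0 h
      have h2 : max s 0 ≤ max t 0 + (s - t) := by
        apply max_le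
        · have := le_max_left t 0; linarith
        · have := le_max_right t 0; linarith
      rw [abs_of_nonneg (by linarith), abs_of_nonneg (by linarith)]
      linarith
  nonneg t := le_max_right _ _
  lc x y h hyx hh := by
    rcases le_total y 0 with hy | hy
    · simp only [max_eq_right hy, mul_zero]
      exact mul_nonneg (le_max_right _ _) (le_max_right _ _)
    · rw [max_eq_left (by linarith : (0:ℝ) ≤ x + h), max_eq_left hy,
        max_eq_left (by linarith : (0:ℝ) ≤ x), max_eq_left (by linarith : (0:ℝ) ≤ y + h)]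
      nlinarith

end Crest.Agent.R280
end

-- ▼ part R280/Upper
section

set_option autoImplicit false

open MeasureTheory Set Filter Topology Crest.AlgGeometry

namespace Crest.Agent.R280

/-- continuous + midpoint concave implies the three point inequality -/
lemma three_point {u : ℝ → ℝ} {p q r : ℝ} (hpq : p ≤ q) (hqr : q ≤ r) (hpr : p < r)
    (hu : ContinuousOn u (Icc p r))
    (hmid : ∀ x h, 0 ≤ h → p ≤ x - h → x + h ≤ r → u (x - h) + u (x + h) ≤ 2 * u x) :
    (r - q) * u p + (q - p) * u r ≤ (r - p) * u q := by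
  set w : ℝ → ℝ := fun x => (r - p) * u x - (r - x) * u p - (x - p) * u r with hw
  have hwc : ContinuousOn w (Icc p r) := by
    refine ContinuousOn.sub (ContinuousOn.sub (continuousOn_const.mul hu) ?_) ?_ <;> fun_prop
  have hwmid : ∀ x h, 0 ≤ h → p ≤ x - h → x + h ≤ r → w (x - h) + w (x + h) ≤ 2 * w x := by
    intro x h hh h1 h2
    have := mul_le_mul_of_nonneg_left (hmid x h hh h1 h2) (by linarith : 0 ≤ r - p)
    simp only [hw]
    nlinarith
  have hwp : w p = 0 := by simp [hw]
  have hwr : w r = 0 := by simp [hw]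
  suffices h : 0 ≤ w q by
    simp only [hw] at h; linarith
  by_contra hneg
  push Not at hneg
  obtain ⟨x1, hx1, hmin⟩ := isCompact_Icc.exists_isMinOn (nonempty_Icc.2 hpr.le) hwc
  have hmin' : ∀ x ∈ Icc p r, w x1 ≤ w x := fun x hx => hmin hx
  have hx1neg : w x1 < 0 := lt_of_le_of_lt (hmin' q ⟨hpq, hqr⟩) hneg
  have hS : IsCompact (Icc p r ∩ w ⁻¹' {w x1}) := by
    have : IsClosed (Icc p r ∩ w ⁻¹' {w x1}) :=
      hwc.preimage_isClosed_of_isClosed isClosed_Icc isClosed_singleton
    exact isCompact_Icc.of_isClosed_subset this inter_subset_left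
  obtain ⟨x0, hx0, hleast⟩ := hS.exists_isLeast ⟨x1, hx1, rfl⟩
  have hx0v : w x0 = w x1 := hx0.2
  have hx0p : p < x0 := by
    rcases eq_or_lt_of_le hx0.1.1 with h | h
    · rw [← h, hwp] at hx0v; linarith
    · exact h
  have hx0r : x0 < r := by
    rcases eq_or_lt_of_le hx0.1.2 with h | h
    · rw [h, hwr] at hx0v; linarith
    · exact h
  set h := min (x0 - p) (r - x0) with hh
  have hpos : 0 < h := lt_min (by linarith) (by linarith)
  have h1 : h ≤ x0 - p := min_le_left _ _
  have h2 : h ≤ r - x0 := min_le_right _ _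
  have m := hwmid x0 h hpos.le (by linarith) (by linarith)
  have m1 := hmin' (x0 - h) ⟨by linarith, by linarith⟩
  have m2 := hmin' (x0 + h) ⟨by linarith, by linarith⟩
  have : x0 - h ∈ Icc p r ∩ w ⁻¹' {w x1} :=
    ⟨⟨by linarith, by linarith⟩, by simp only [mem_preimage, mem_singleton_iff]; linarith⟩
  have := hleast this
  linarith

/-- three point inequality for the logarithm of a Good function -/
lemma Good.log_three {f : ℝ → ℝ} (hf : Good f) {p q r : ℝ} (hpq : p ≤ q) (hqr : q ≤ r)
    (hpr : p < r) (hpos : ∀ x ∈ Icc p r, 0 < f x) :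
    (r - q) * Real.log (f p) + (q - p) * Real.log (f r) ≤ (r - p) * Real.log (f q) := by
  refine three_point (u := fun x => Real.log (f x)) hpq hqr hpr ?_ ?_
  · exact hf.continuous.continuousOn.log (fun x hx => (hpos x hx).ne')
  · intro x h hh h1 h2
    have e := hf.lc x (x - h) h (by linarith) hh
    rw [sub_add_cancel] at e
    have p1 := hpos (x - h) ⟨h1, by linarith⟩
    have p2 := hpos (x + h) ⟨by linarith, h2⟩
    have p3 := hpos x ⟨by linarith, by linarith⟩
    have := Real.log_le_log (mul_pos p2 p1) e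
    rw [Real.log_mul p2.ne' p1.ne', Real.log_mul p3.ne' p3.ne'] at this
    linarith

/-- `E (t + ∑ a_i X_i)_+` -/
noncomputable def II (N : ℕ) (a : Fin N → ℝ) (t : ℝ) : ℝ :=
  ∫ x, max (t + ∑ i, a i * x i) 0 ∂(Measure.pi (fun _ : Fin N => nu))

lemma integrable_lin (N : ℕ) (a : Fin N → ℝ) (t : ℝ) :
    Integrable (fun x : Fin N → ℝ => t + ∑ i, a i * x i) (Measure.pi (fun _ : Fin N => nu)) := by
  refine (integrable_const t).add (integrable_finsetSum _ fun i _ => ?_)
  exact (integrable_comp_eval (μ := fun _ : Fin N => nu) integrable_id_nu).const_mul (a i)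

lemma integral_lin (N : ℕ) (a : Fin N → ℝ) (t : ℝ) :
    ∫ x : Fin N → ℝ, t + ∑ i, a i * x i ∂(Measure.pi (fun _ : Fin N => nu)) = t + ∑ i, a i := by
  have hi : ∀ i : Fin N, Integrable (fun x : Fin N → ℝ => a i * x i)
      (Measure.pi (fun _ : Fin N => nu)) := fun i =>
    (integrable_comp_eval (μ := fun _ : Fin N => nu) integrable_id_nu).const_mul (a i)
  rw [integral_add (integrable_const t) (integrable_finsetSum _ fun i _ => hi i),
    integral_finsetSum _ fun i _ => hi i]
  simp only [integral_const, probReal_univ, smul_eq_mul, one_mul]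
  congr 1
  refine Finset.sum_congr rfl fun i _ => ?_
  rw [integral_const_mul, integral_comp_eval (μ := fun _ : Fin N => nu) (f := fun x : ℝ => x)
    (by fun_prop), integral_id_nu, mul_one]

lemma integrable_max (N : ℕ) (a : Fin N → ℝ) (t : ℝ) :
    Integrable (fun x : Fin N → ℝ => max (t + ∑ i, a i * x i) 0)
      (Measure.pi (fun _ : Fin N => nu)) :=
  (integrable_lin N a t).pos_part

lemma II_succ (N : ℕ) (a : Fin (N+1) → ℝ) :
    II (N+1) a = T (a 0) (II N (fun i => a i.succ)) := by
  funext t
  unfold II T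
  rw [integral_succ _ _ (integrable_max (N+1) a t)]
  refine integral_congr_ae (Eventually.of_forall fun u => ?_)
  refine integral_congr_ae (Eventually.of_forall fun x => ?_)
  simp only [Fin.sum_univ_succ, Fin.cons_zero, Fin.cons_succ]
  congr 1
  ring

lemma good_II : ∀ (N : ℕ) (a : Fin N → ℝ), Good (II N a) := by
  intro N
  induction N with
  | zero =>
    intro a
    have : II 0 a = fun t => max t 0 := by
      funext t
      unfold II
      simp
    rw [this]; exact good_posPart
  | succ n ih =>
    intro a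
    rw [II_succ]
    exact (ih _).T _

lemma II_mono (N : ℕ) (a : Fin N → ℝ) : Monotone (II N a) := by
  intro s t hst
  unfold II
  refine integral_mono (integrable_max N a s) (integrable_max N a t) (fun x => ?_)
  exact max_le_max_right 0 (by linarith)

lemma II_ge (N : ℕ) (a : Fin N → ℝ) (ha : ∑ i, a i = 0) (t : ℝ) : t ≤ II N a t := by
  have h := integral_lin N a t
  rw [ha, add_zero] at h
  calc t = ∫ x : Fin N → ℝ, t + ∑ i, a i * x i ∂(Measure.pi (fun _ : Fin N => nu)) := h.symm
    _ ≤ _ := integral_mono (integrable_lin N a t) (integrable_max N a t) fun x => le_max_left _ _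

/-- the pointwise identity -/
lemma g_identity (y : ℝ) :
    ∫ z, (1 - z) * max (y - z) 0 ∂nu = 1 - truncExpWeight y := by
  rw [integral_nu]
  unfold truncExpWeight
  rcases le_or_gt y 0 with hy | hy
  · rw [if_pos hy, sub_self]
    rw [setIntegral_congr_fun (g := fun _ => (0:ℝ)) measurableSet_Ioi]
    · simp
    · intro z hz
      simp only
      rw [max_eq_right (by have : (0:ℝ) < z := hz; linarith)]
      ring
  · rw [if_neg (not_le.2 hy)]
    have h1 : ∫ z in Ioi (0:ℝ), Real.exp (-z) * ((1 - z) * max (y - z) 0) =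
        ∫ z in (0:ℝ)..y, Real.exp (-z) * ((1 - z) * (y - z)) := by
      rw [intervalIntegral.integral_of_le hy.le]
      have : ∀ z ∈ Ioi (0:ℝ), Real.exp (-z) * ((1 - z) * max (y - z) 0) =
          (Ioc 0 y).indicator (fun z => Real.exp (-z) * ((1 - z) * (y - z))) z := by
        intro z hz
        rcases le_or_gt z y with h | h
        · rw [indicator_of_mem (show z ∈ Ioc 0 y from ⟨hz, h⟩), max_eq_left (by linarith)]
        · rw [indicator_of_notMem (fun h' => absurd h'.2 (not_le.2 h)),
            max_eq_right (by linarith)]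
          ring
      rw [setIntegral_congr_fun measurableSet_Ioi this, setIntegral_indicator measurableSet_Ioc]
      congr 2
      ext z; simp only [mem_inter_iff, mem_Ioi, mem_Ioc]; tauto
    rw [h1]
    have hd : ∀ z ∈ uIcc 0 y, HasDerivAt (fun z : ℝ => -((z^2 + (1 - y) * z + 1) * Real.exp (-z)))
        (Real.exp (-z) * ((1 - z) * (y - z))) z := by
      intro z _
      have e1 : HasDerivAt (fun x : ℝ => Real.exp (-x)) (-Real.exp (-z)) z := by
        simpa using ((hasDerivAt_id z).neg).exp
      have e2 : HasDerivAt (fun z : ℝ => z^2 + (1 - y) * z + 1) (2 * z + (1 - y)) z := by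
        have := (((hasDerivAt_pow 2 z).add ((hasDerivAt_id z).const_mul (1 - y))).add_const 1)
        refine this.congr_deriv ?_
        simp
      refine ((e2.mul e1).neg).congr_deriv ?_
      ring
    rw [intervalIntegral.integral_eq_sub_of_hasDerivAt hd
      (Continuous.intervalIntegrable (by fun_prop) _ _)]
    simp
    ring


lemma measurable_trunc : Measurable truncExpWeight := by
  unfold truncExpWeight
  exact Measurable.ite measurableSet_Iic measurable_const (by fun_prop)

lemma integrable_sq_nu : Integrable (fun x : ℝ => x ^ 2) nu := by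
  rw [integrable_nu_iff]
  have := Real.GammaIntegral_convergent (s := 3) (by norm_num)
  refine this.congr_fun (fun x hx => ?_) measurableSet_Ioi
  norm_num

/-- Fubini -/
lemma one_sub_E (N : ℕ) (a : Fin N → ℝ) :
    ∫ x : Fin N → ℝ, (1 - truncExpWeight (4 / 3 + ∑ i, a i * x i))
        ∂(Measure.pi (fun _ : Fin N => nu))
      = ∫ z, (1 - z) * II N a (4 / 3 - z) ∂nu := by
  have h1 : ∀ x : Fin N → ℝ, 1 - truncExpWeight (4 / 3 + ∑ i, a i * x i) =
      ∫ z, (1 - z) * max (4 / 3 + ∑ i, a i * x i - z) 0 ∂nu := fun x => (g_identity _).symm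
  simp_rw [h1]
  rw [integral_integral_swap]
  · refine integral_congr_ae (Eventually.of_forall fun z => ?_)
    simp only
    rw [integral_const_mul]
    congr 1
    unfold II
    refine integral_congr_ae (Eventually.of_forall fun x => ?_)
    simp only
    congr 1; ring
  · -- integrability
    have hA : Integrable (fun x : Fin N → ℝ => |4 / 3 + ∑ i, a i * x i|)
        (Measure.pi (fun _ : Fin N => nu)) := (integrable_lin N a (4/3)).abs
    have hB : Integrable (fun z : ℝ => |1 - z|) nu :=
      ((integrable_const (1:ℝ)).sub integrable_id_nu).abs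
    have hC : Integrable (fun z : ℝ => |1 - z| * |z|) nu := by
      have := (((integrable_id_nu).sub integrable_sq_nu)).abs
      refine this.congr (Eventually.of_forall fun z => ?_)
      simp only [Pi.sub_apply]
      rw [← abs_mul]; congr 1; ring
    have hD := (hA.mul_prod hB).add ((integrable_const (1:ℝ) (μ := Measure.pi (fun _ : Fin N => nu))).mul_prod hC)
    refine hD.mono' ?_ (Eventually.of_forall fun p => ?_)
    · apply Measurable.aestronglyMeasurable
      simp only [Function.uncurry_def]
      fun_prop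
    · simp only [Function.uncurry, Real.norm_eq_abs, Pi.add_apply, one_mul]
      rw [abs_mul]
      have : |max (4 / 3 + ∑ i, a i * p.1 i - p.2) 0| ≤ |4 / 3 + ∑ i, a i * p.1 i| + |p.2| := by
        rw [abs_of_nonneg (le_max_right _ _)]
        apply max_le
        · have h1 := le_abs_self (4 / 3 + ∑ i, a i * p.1 i)
          have h2 := neg_abs_le p.2
          linarith
        · positivity
      have := mul_le_mul_of_nonneg_left this (abs_nonneg (1 - p.2))
      linarith

lemma integrable_weight (N : ℕ) (a : Fin N → ℝ) :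
    Integrable (fun z => (1 - z) * II N a (4 / 3 - z)) nu := by
  have hB : Integrable (fun z : ℝ => |1 - z|) nu :=
    ((integrable_const (1:ℝ)).sub integrable_id_nu).abs
  have hC : Integrable (fun z : ℝ => |1 - z| * |z|) nu := by
    have := (((integrable_id_nu).sub integrable_sq_nu)).abs
    refine this.congr (Eventually.of_forall fun z => ?_)
    simp only [Pi.sub_apply]
    rw [← abs_mul]; congr 1; ring
  have hD := (hB.mul_const (II N a (4/3))).add hC
  have hcont : Continuous (fun z => (1 - z) * II N a (4 / 3 - z)) :=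
    (by fun_prop : Continuous fun z : ℝ => 1 - z).mul
      ((good_II N a).continuous.comp (by fun_prop))
  refine hD.mono' hcont.aestronglyMeasurable (Eventually.of_forall fun z => ?_)
  simp only [Real.norm_eq_abs, Pi.add_apply]
  rw [abs_mul, abs_of_nonneg ((good_II N a).nonneg _)]
  have := le_of_abs_le ((good_II N a).lip (4/3 - z) (4/3))
  have e : |4 / 3 - z - 4 / 3| = |z| := by rw [show (4:ℝ) / 3 - z - 4 / 3 = -z by ring, abs_neg]
  rw [e] at this
  have := mul_le_mul_of_nonneg_left this (abs_nonneg (1 - z))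
  linarith

lemma hasDerivAt_aux (k : ℝ) (hk : 0 < k) (z : ℝ) :
    HasDerivAt (fun z : ℝ => ((1 / (1 + k)) * z - k / (1 + k) ^ 2) * Real.exp (-((1 + k) * z)))
      (Real.exp (-z) * ((1 - z) * Real.exp (-(k * z)))) z := by
  have e1 : HasDerivAt (fun z : ℝ => Real.exp (-((1 + k) * z)))
      (Real.exp (-((1 + k) * z)) * (-((1 + k) * 1))) z :=
    (((hasDerivAt_id z).const_mul (1 + k)).neg).exp
  have e2 : HasDerivAt (fun z : ℝ => (1 / (1 + k)) * z - k / (1 + k) ^ 2) ((1 / (1 + k)) * 1) z :=
    ((hasDerivAt_id z).const_mul (1 / (1 + k))).sub_const _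
  refine (e2.mul e1).congr_deriv ?_
  have : Real.exp (-((1 + k) * z)) = Real.exp (-z) * Real.exp (-(k * z)) := by
    rw [← Real.exp_add]; congr 1; ring
  rw [this]
  have h1k : (1 + k) ≠ 0 := by positivity
  field_simp
  ring

lemma integrable_aux (k : ℝ) (hk : 0 < k) :
    Integrable (fun z => (1 - z) * Real.exp (-(k * z))) nu := by
  have hB : Integrable (fun z : ℝ => |1 - z|) nu :=
    ((integrable_const (1:ℝ)).sub integrable_id_nu).abs
  refine hB.mono' (by fun_prop) ?_
  have hpos : ∀ᵐ v ∂nu, 0 ≤ v := by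
    unfold nu
    refine (withDensity_absolutelyContinuous _ _).ae_le ?_
    filter_upwards [ae_restrict_mem measurableSet_Ioi] with v hv using le_of_lt hv
  filter_upwards [hpos] with z hz
  rw [Real.norm_eq_abs, abs_mul, abs_of_pos (Real.exp_pos _)]
  have : Real.exp (-(k * z)) ≤ 1 := by
    rw [Real.exp_le_one_iff]; nlinarith
  exact mul_le_of_le_one_right (abs_nonneg _) this

lemma integral_aux (k : ℝ) (hk : 0 < k) :
    ∫ z, (1 - z) * Real.exp (-(k * z)) ∂nu = k / (1 + k) ^ 2 := by
  rw [integral_nu]
  have ht : Tendsto (fun z : ℝ => ((1 / (1 + k)) * z - k / (1 + k) ^ 2) *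
      Real.exp (-((1 + k) * z))) atTop (𝓝 0) := by
    have hs : Tendsto (fun z : ℝ => (1 + k) * z) atTop atTop :=
      tendsto_id.const_mul_atTop (by positivity)
    have h1 := (Real.tendsto_pow_mul_exp_neg_atTop_nhds_zero 1).comp hs
    have h0 := (Real.tendsto_pow_mul_exp_neg_atTop_nhds_zero 0).comp hs
    have := (h1.const_mul (1 / (1 + k) ^ 2)).sub (h0.const_mul (k / (1 + k) ^ 2))
    simp only [mul_zero, sub_zero] at this
    refine this.congr (fun z => ?_)
    simp only [Function.comp, pow_one, pow_zero]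
    have h1k : (1 + k) ≠ 0 := by positivity
    field_simp
  rw [integral_Ioi_of_hasDerivAt_of_tendsto
    (hasDerivAt_aux k hk 0).continuousAt.continuousWithinAt (fun x _ => hasDerivAt_aux k hk x)
    ((integrable_nu_iff _).1 (integrable_aux k hk)) ht]
  simp


/-- Main analytic estimate: comparison with the chord. -/
lemma main_lower (N : ℕ) (a : Fin N → ℝ) (ha : ∑ i, a i = 0) :
    4 / 9 * Real.exp (-(1/3)) ≤ ∫ z, (1 - z) * II N a (4 / 3 - z) ∂nu := by
  set f := II N a with hf
  have good : Good f := good_II N a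
  have mono : Monotone f := II_mono N a
  have hge : ∀ t, t ≤ f t := II_ge N a ha
  have hpos43 : 0 < f (4/3) := lt_of_lt_of_le (by norm_num) (hge _)
  have hpos13 : 0 < f (1/3) := lt_of_lt_of_le (by norm_num) (hge _)
  set k := Real.log (f (4/3)) - Real.log (f (1/3)) with hk
  -- upper bound for large t
  have hlarge : ∀ t, 4/3 < t → Real.log (f t) ≤ Real.log (f (4/3)) + (t - 4/3) * k := by
    intro t ht
    have := good.log_three (p := 1/3) (q := 4/3) (r := t) (by norm_num) ht.le
      (by linarith) (fun x hx => lt_of_lt_of_le hpos13 (mono hx.1))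
    simp only [hk]
    nlinarith
  have hk0 : 0 < k := by
    by_contra hneg
    push Not at hneg
    have h1 : ∀ t, 4/3 < t → f t ≤ f (4/3) := by
      intro t ht
      have h2 := hlarge t ht
      have h3 : (t - 4/3) * k ≤ 0 := mul_nonpos_of_nonneg_of_nonpos (by linarith) hneg
      have hft : 0 < f t := lt_of_lt_of_le (by linarith) (hge t)
      exact (Real.log_le_log_iff hft hpos43).1 (by linarith)
    have h4 := h1 (f (4/3) + 2) (by linarith)
    have h5 := hge (f (4/3) + 2)
    linarith
  -- pointwise comparison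
  have hcomp : ∀ z, 0 ≤ z → (1 - z) * (f (4/3) * Real.exp (-(k * z))) ≤ (1 - z) * f (4 / 3 - z) := by
    intro z hz
    have e0 : f (4/3) * Real.exp (-(k * z)) = Real.exp (Real.log (f (4/3)) - k * z) := by
      rw [sub_eq_add_neg, Real.exp_add, Real.exp_log hpos43]
    rcases le_or_gt z 1 with h1 | h1
    · apply mul_le_mul_of_nonneg_left _ (by linarith)
      have hp : 0 < f (4/3 - z) := lt_of_lt_of_le hpos13 (mono (by linarith))
      have := good.log_three (p := 1/3) (q := 4/3 - z) (r := 4/3) (by linarith) (by linarith)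
        (by norm_num) (fun x hx => lt_of_lt_of_le hpos13 (mono hx.1))
      rw [e0, ← Real.exp_log hp]
      apply Real.exp_le_exp.2
      simp only [hk]
      nlinarith
    · apply mul_le_mul_of_nonpos_left _ (by linarith)
      rcases eq_or_lt_of_le (good.nonneg (4/3 - z)) with h0 | hp
      · rw [← h0]; positivity
      · have := good.log_three (p := 4/3 - z) (q := 1/3) (r := 4/3) (by linarith) (by norm_num)
          (by linarith) (fun x hx => lt_of_lt_of_le hp (mono hx.1))
        rw [e0, ← Real.exp_log hp]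
        apply Real.exp_le_exp.2
        simp only [hk]
        nlinarith
  have hposae : ∀ᵐ v ∂nu, 0 ≤ v := by
    unfold nu
    refine (withDensity_absolutelyContinuous _ _).ae_le ?_
    filter_upwards [ae_restrict_mem measurableSet_Ioi] with v hv using le_of_lt hv
  have hint : f (4/3) * (k / (1 + k) ^ 2) ≤ ∫ z, (1 - z) * f (4 / 3 - z) ∂nu := by
    rw [← integral_aux k hk0, ← integral_const_mul]
    refine integral_mono_ae ((integrable_aux k hk0).const_mul _) (integrable_weight N a) ?_
    filter_upwards [hposae] with z hz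
    have := hcomp z hz
    calc f (4/3) * ((1 - z) * Real.exp (-(k * z)))
        = (1 - z) * (f (4/3) * Real.exp (-(k * z))) := by ring
      _ ≤ _ := this
  refine le_trans ?_ hint
  rcases le_or_gt k (3/4) with hk34 | hk34
  · -- Grünbaum type bound
    have hexp : Real.exp (4/3 * k - 1) ≤ k * f (4/3) := by
      rcases eq_or_lt_of_le hk34 with h | h
      · rw [h]
        have : Real.exp (4/3 * (3/4) - 1) = 1 := by norm_num
        rw [this]
        have := hge (4/3)
        linarith
      · have h43 : 4/3 < 1/k := by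
          rw [lt_div_iff₀ hk0]; linarith
        have h1 := hlarge (1/k) h43
        have h2 := hge (1/k)
        have h1k : 0 < 1/k := by positivity
        have h3 : Real.log (1/k) ≤ Real.log (f (1/k)) := Real.log_le_log h1k h2
        have h4 : Real.log (1/k) = - Real.log k := by rw [one_div, Real.log_inv]
        have h5 : (1/k - 4/3) * k = 1 - 4/3 * k := by field_simp
        rw [h5] at h1
        have h6 : 4/3 * k - 1 ≤ Real.log (k * f (4/3)) := by
          rw [Real.log_mul hk0.ne' hpos43.ne']; linarith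
        calc Real.exp (4/3 * k - 1) ≤ Real.exp (Real.log (k * f (4/3))) := Real.exp_le_exp.2 h6
          _ = _ := Real.exp_log (by positivity)
    have hsq : (2/3 * (1 + k)) ^ 2 ≤ Real.exp (4/3 * k - 2/3) := by
      have h1 := Real.add_one_le_exp ((2 * k - 1) / 3)
      have h2 : Real.exp (4/3 * k - 2/3) = (Real.exp ((2 * k - 1) / 3)) ^ 2 := by
        rw [← Real.exp_nat_mul]; congr 1; push_cast; ring
      rw [h2]
      apply pow_le_pow_left₀ (by positivity)
      linarith
    have e1 : Real.exp (4/3 * k - 1) = Real.exp (-(1/3)) * Real.exp (4/3 * k - 2/3) := by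
      rw [← Real.exp_add]; congr 1; ring
    have h1k : 0 < (1 + k) ^ 2 := by positivity
    have e2 : f (4/3) * (k / (1 + k) ^ 2) = (k * f (4/3)) / (1 + k) ^ 2 := by ring
    rw [e2, le_div_iff₀ h1k]
    refine le_trans ?_ hexp
    rw [e1]
    have := mul_le_mul_of_nonneg_left hsq (Real.exp_pos (-(1/3))).le
    nlinarith
  · -- k in (3/4, log 4]
    have hklog : k ≤ Real.log 4 := by
      have h1 := le_of_abs_le (good.lip (4/3) (1/3))
      have h2 : |(4:ℝ)/3 - 1/3| = 1 := by norm_num
      rw [h2] at h1
      have h3 := hge (1/3)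
      have h4 : f (4/3) ≤ 4 * f (1/3) := by linarith
      have h5 := Real.log_le_log hpos43 h4
      rw [Real.log_mul (by norm_num) hpos13.ne'] at h5
      simp only [hk]; linarith
    have hlog4 : Real.log 4 < 1.4 := by
      have : (4:ℝ) = 2 ^ 2 := by norm_num
      rw [this, Real.log_pow]
      have := Real.log_two_lt_d9
      push_cast; linarith
    have hk14 : k < 1.4 := lt_of_le_of_lt hklog hlog4
    have hf43 := hge (4/3)
    have hexp13 : Real.exp (-(1/3)) ≤ 18/25 := by
      have h1 := Real.add_one_le_exp ((1:ℝ)/3)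
      have h2 : (25:ℝ)/18 ≤ Real.exp (1/3) := by
        have := Real.quadratic_le_exp_of_nonneg (x := 1/3) (by norm_num)
        norm_num at this ⊢
        linarith
      rw [Real.exp_neg]
      rw [inv_le_comm₀ (Real.exp_pos _) (by norm_num)]
      norm_num
      norm_num at h2
      exact h2
    have h1k : 0 < (1 + k) ^ 2 := by positivity
    have hkey : 8/25 * (1 + k) ^ 2 ≤ 4/3 * k := by nlinarith
    calc 4 / 9 * Real.exp (-(1/3)) ≤ 8/25 := by linarith
      _ ≤ 4/3 * (k / (1 + k) ^ 2) := by
        rw [← mul_div_assoc, le_div_iff₀ h1k]; exact hkey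
      _ ≤ f (4/3) * (k / (1 + k) ^ 2) := by
        apply mul_le_mul_of_nonneg_right hf43 (by positivity)

/-- first conjunct of S0423 -/
theorem part1 (N : ℕ) (a : Fin N → ℝ) (ha : ∑ i, a i = 0) :
      Real.exp (4 / 3) / (4 / 3) *
          ∫ x in Set.pi Set.univ (fun _ : Fin N => Set.Ioi (0 : ℝ)),
            Crest.AlgGeometry.truncExpWeight (4 / 3 + ∑ i, a i * x i) * Real.exp (-∑ i, x i)
        ≤ 3 / 4 * Real.exp (4 / 3) - Real.exp 1 / 3 := by
  rw [integral_orthant N (fun x => truncExpWeight (4 / 3 + ∑ i, a i * x i))]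
  have hb : ∀ y, |truncExpWeight y| ≤ 1 := by
    intro y
    unfold truncExpWeight
    split_ifs with h
    · simp
    · push Not at h
      have h1 := Real.add_one_le_exp y
      have h2 : (1 + y) * Real.exp (-y) ≤ 1 := by
        rw [Real.exp_neg, ← div_eq_mul_inv, div_le_one (Real.exp_pos _)]; linarith
      rw [abs_of_nonneg (by positivity)]
      exact h2
  have hint : Integrable (fun x : Fin N → ℝ => truncExpWeight (4 / 3 + ∑ i, a i * x i))
      (Measure.pi (fun _ : Fin N => nu)) := by
    refine (integrable_const (1:ℝ)).mono' ?_ (Eventually.of_forall fun x => hb _)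
    exact (measurable_trunc.comp (by fun_prop)).aestronglyMeasurable
  have h1 := one_sub_E N a
  rw [integral_sub (integrable_const _) hint] at h1
  simp only [integral_const, probReal_univ, smul_eq_mul, one_mul] at h1
  have h2 := main_lower N a ha
  rw [← h1] at h2
  have h3 : ∫ x : Fin N → ℝ, truncExpWeight (4 / 3 + ∑ i, a i * x i)
        ∂(Measure.pi (fun _ : Fin N => nu)) ≤ 1 - 4 / 9 * Real.exp (-(1/3)) := by linarith
  have h4 : Real.exp (4/3) * Real.exp (-(1/3)) = Real.exp 1 := by
    rw [← Real.exp_add]; norm_num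
  have h5 := mul_le_mul_of_nonneg_left h3 (by positivity : 0 ≤ Real.exp (4 / 3) / (4 / 3))
  refine h5.trans (le_of_eq ?_)
  rw [← h4]; ring

end Crest.Agent.R280
end

-- ▼ part R280/Orthant
section

set_option autoImplicit false
open MeasureTheory Set
open scoped ENNReal

namespace Crest.Agent.R280

/-- mean-one exponential law -/
noncomputable def E1 : Measure ℝ :=
  (volume.restrict (Ioi (0:ℝ))).withDensity (fun x => ENNReal.ofReal (Real.exp (-x)))

theorem integrable_exp_neg : Integrable (fun x : ℝ => Real.exp (-x)) (volume.restrict (Ioi (0:ℝ))) := by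
  have := Real.GammaIntegral_convergent (s := 1) one_pos
  simpa [IntegrableOn] using this

theorem integral_exp_neg : ∫ x in Ioi (0:ℝ), Real.exp (-x) = 1 := by
  simpa using integral_exp_neg_Ioi (0:ℝ)

theorem E1_univ : E1 univ = 1 := by
  rw [E1, withDensity_apply _ MeasurableSet.univ, Measure.restrict_univ,
    ← ofReal_integral_eq_lintegral_ofReal integrable_exp_neg
      (Filter.Eventually.of_forall fun x => (Real.exp_pos _).le), integral_exp_neg]
  simp

instance : IsProbabilityMeasure E1 := ⟨E1_univ⟩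

theorem pi_E1 (N : ℕ) :
    Measure.pi (fun _ : Fin N => E1) =
      (volume.restrict (Set.pi univ (fun _ : Fin N => Ioi (0:ℝ)))).withDensity
        (fun x => ENNReal.ofReal (Real.exp (-∑ i, x i))) := by
  refine Measure.pi_eq (fun s hs => ?_)
  have hint : ∀ i, Integrable ((s i).indicator (fun y => Real.exp (-y)))
      (volume.restrict (Ioi (0:ℝ))) := fun i => integrable_exp_neg.indicator (hs i)
  rw [withDensity_apply _ (MeasurableSet.univ_pi hs), ← lintegral_indicator (MeasurableSet.univ_pi hs)]
  have h1 : (Set.pi univ s).indicator (fun x : Fin N → ℝ => ENNReal.ofReal (Real.exp (-∑ i, x i)))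
      = fun x => ENNReal.ofReal (∏ i, (s i).indicator (fun y => Real.exp (-y)) (x i)) := by
    funext x
    by_cases hx : x ∈ Set.pi univ s
    · rw [indicator_of_mem hx]
      congr 1
      rw [← Finset.sum_neg_distrib, Real.exp_sum]
      refine Finset.prod_congr rfl (fun i _ => ?_)
      rw [indicator_of_mem (hx i (mem_univ i))]
    · rw [indicator_of_notMem hx]
      have : ∃ i, x i ∉ s i := by
        by_contra hcon
        push Not at hcon
        exact hx (fun i _ => hcon i)
      obtain ⟨i, hi⟩ := this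
      rw [Finset.prod_eq_zero (Finset.mem_univ i)]
      · simp
      · rw [indicator_of_notMem hi]
  rw [h1, volume_pi, Measure.restrict_pi_pi,
    ← ofReal_integral_eq_lintegral_ofReal (Integrable.fin_nat_prod hint)
      (Filter.Eventually.of_forall fun x => Finset.prod_nonneg fun i _ =>
        indicator_nonneg (fun y _ => (Real.exp_pos _).le) _),
    integral_fin_nat_prod_eq_prod, ENNReal.ofReal_prod_of_nonneg]
  · refine Finset.prod_congr rfl (fun i _ => ?_)
    rw [E1, withDensity_apply _ (hs i), ← lintegral_indicator (hs i),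
      ofReal_integral_eq_lintegral_ofReal (hint i)
      (Filter.Eventually.of_forall fun x => indicator_nonneg (fun y _ => (Real.exp_pos _).le) _)]
    refine lintegral_congr fun y => ?_
    by_cases hy : y ∈ s i <;> simp [hy]
  · intro i _
    exact integral_nonneg (fun x => indicator_nonneg (fun y _ => (Real.exp_pos _).le) _)

/-- orthant integral against `exp (-∑ x_i)` = expectation under product of `E1` -/
theorem orthant_integral (N : ℕ) (f : (Fin N → ℝ) → ℝ) :
    ∫ x in Set.pi univ (fun _ : Fin N => Ioi (0 : ℝ)), f x * Real.exp (-∑ i, x i)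
      = ∫ x, f x ∂(Measure.pi (fun _ : Fin N => E1)) := by
  rw [pi_E1, integral_withDensity_eq_integral_toReal_smul (by fun_prop)
    (Filter.Eventually.of_forall fun x => ENNReal.ofReal_lt_top)]
  refine integral_congr_ae (Filter.Eventually.of_forall fun x => ?_)
  simp only [smul_eq_mul]
  rw [ENNReal.toReal_ofReal (Real.exp_pos _).le, mul_comm]

/-- one-variable integral under `E1` -/
theorem E1_integral (f : ℝ → ℝ) :
    ∫ x, f x ∂E1 = ∫ x in Ioi (0:ℝ), f x * Real.exp (-x) := by
  rw [E1, integral_withDensity_eq_integral_toReal_smul (by fun_prop)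
    (Filter.Eventually.of_forall fun x => ENNReal.ofReal_lt_top)]
  refine integral_congr_ae (Filter.Eventually.of_forall fun x => ?_)
  simp only [smul_eq_mul]
  rw [ENNReal.toReal_ofReal (Real.exp_pos _).le, mul_comm]

theorem E1_integrable_iff (f : ℝ → ℝ) :
    Integrable f E1 ↔ IntegrableOn (fun x => f x * Real.exp (-x)) (Ioi (0:ℝ)) := by
  rw [E1, integrable_withDensity_iff_integrable_smul' (by fun_prop)
    (Filter.Eventually.of_forall fun x => ENNReal.ofReal_lt_top), IntegrableOn]
  refine integrable_congr (Filter.Eventually.of_forall fun x => ?_)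
  simp only [smul_eq_mul]
  rw [ENNReal.toReal_ofReal (Real.exp_pos _).le, mul_comm]

end Crest.Agent.R280
end

-- ▼ part R280/Moments
section

set_option autoImplicit false
open MeasureTheory Set ProbabilityTheory
open scoped ENNReal

namespace Crest.Agent.R280

theorem int_pow (n : ℕ) : IntegrableOn (fun x : ℝ => x ^ n * Real.exp (-x)) (Ioi (0:ℝ)) := by
  have := Real.GammaIntegral_convergent (s := (n:ℝ) + 1) (by positivity)
  refine this.congr_fun (fun x hx => ?_) measurableSet_Ioi
  simp only [add_sub_cancel_right, Real.rpow_natCast]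
  ring

theorem integral_pow (n : ℕ) : ∫ x in Ioi (0:ℝ), x ^ n * Real.exp (-x) = (n.factorial : ℝ) := by
  rw [← Real.Gamma_nat_eq_factorial, Real.Gamma_eq_integral (by positivity)]
  refine setIntegral_congr_fun measurableSet_Ioi (fun x hx => ?_)
  simp only [add_sub_cancel_right, Real.rpow_natCast]
  ring

theorem E1_int_pow (n : ℕ) : Integrable (fun x : ℝ => x ^ n) E1 := by
  rw [E1_integrable_iff]; exact int_pow n

theorem E1_pow (n : ℕ) : ∫ x, x ^ n ∂E1 = (n.factorial : ℝ) := by
  rw [E1_integral]; exact integral_pow n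

theorem E1_int_id : Integrable (fun x : ℝ => x) E1 := by
  simpa using E1_int_pow 1

theorem E1_mean : ∫ x, x ∂E1 = 1 := by simpa using E1_pow 1

theorem E1_memLp_id : MemLp (fun x : ℝ => x) 2 E1 := by
  rw [memLp_two_iff_integrable_sq (by fun_prop)]
  exact E1_int_pow 2

theorem E1_memLp (b : ℝ) : MemLp (fun x : ℝ => b * (x - 1)) 2 E1 :=
  (E1_memLp_id.sub (memLp_const 1)).const_mul b

theorem E1_aff (b : ℝ) : ∫ x, b * (x - 1) ∂E1 = 0 := by
  rw [integral_const_mul, integral_sub E1_int_id (integrable_const _), E1_mean]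
  simp

theorem E1_var (b : ℝ) : Var[fun x : ℝ => b * (x - 1); E1] = b ^ 2 := by
  rw [variance_of_integral_eq_zero (by fun_prop) (E1_aff b)]
  have : (fun x : ℝ => (b * (x - 1)) ^ 2) = fun x => b ^ 2 * (x ^ 2 - 2 * x + 1) := by
    funext x; ring
  simp only [this]
  rw [integral_const_mul, integral_add, integral_sub, integral_const_mul, E1_mean, E1_pow]
  · simp [Nat.factorial]
  · exact E1_int_pow 2
  · exact E1_int_id.const_mul 2
  · exact (E1_int_pow 2).sub (E1_int_id.const_mul 2)
  · exact integrable_const _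

theorem pi_memLp (N : ℕ) (b : Fin N → ℝ) :
    MemLp (fun ω : Fin N → ℝ => ∑ i, b i * (ω i - 1)) 2 (Measure.pi fun _ : Fin N => E1) :=
  memLp_finsetSum _ (fun i _ => (E1_memLp (b i)).comp_measurePreserving (measurePreserving_eval _ i))

theorem pi_mean (N : ℕ) (b : Fin N → ℝ) :
    ∫ ω : Fin N → ℝ, ∑ i, b i * (ω i - 1) ∂(Measure.pi fun _ : Fin N => E1) = 0 := by
  rw [integral_finsetSum]
  · refine Finset.sum_eq_zero (fun i _ => ?_)
    rw [integral_comp_eval (μ := fun _ : Fin N => E1) (i := i) (f := fun x : ℝ => b i * (x - 1))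
      (by fun_prop), E1_aff]
  · intro i _
    exact integrable_comp_eval (μ := fun _ : Fin N => E1) (i := i) (f := fun x : ℝ => b i * (x - 1))
      ((E1_memLp (b i)).integrable (by norm_num))

theorem pi_sq (N : ℕ) (b : Fin N → ℝ) :
    ∫ ω : Fin N → ℝ, (∑ i, b i * (ω i - 1)) ^ 2 ∂(Measure.pi fun _ : Fin N => E1) = ∑ i, b i ^ 2 := by
  have h := variance_sum_pi (μ := fun _ : Fin N => E1) (X := fun i (x : ℝ) => b i * (x - 1))
    (fun i => E1_memLp (b i))
  simp only [E1_var] at h
  rw [← h]
  have : (∑ i, fun ω : Fin N → ℝ => b i * (ω i - 1)) = fun ω => ∑ i, b i * (ω i - 1) := by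
    funext ω; simp
  rw [this, variance_of_integral_eq_zero (pi_memLp N b).aemeasurable (pi_mean N b)]

theorem pi_sq_integrable (N : ℕ) (b : Fin N → ℝ) :
    Integrable (fun ω : Fin N → ℝ => (∑ i, b i * (ω i - 1)) ^ 2) (Measure.pi fun _ : Fin N => E1) :=
  (pi_memLp N b).integrable_sq

end Crest.Agent.R280
end

-- ▼ part R280/Sharp

set_option autoImplicit false
open MeasureTheory Set ProbabilityTheory Filter Topology
open scoped ENNReal
open Crest.AlgGeometry (truncExpWeight)

namespace Crest.Agent.R280

theorem tew_eq (y : ℝ) : truncExpWeight y = (1 + max y 0) * Real.exp (-(max y 0)) := by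
  unfold truncExpWeight
  split_ifs with h
  · rw [max_eq_right h]; simp
  · rw [max_eq_left (not_le.mp h).le]

theorem tew_continuous : Continuous truncExpWeight := by
  have : truncExpWeight = fun y : ℝ => (1 + max y 0) * Real.exp (-(max y 0)) := funext tew_eq
  rw [this]
  fun_prop

theorem tew_lip (y z : ℝ) : |truncExpWeight y - truncExpWeight z| ≤ |y - z| := by
  have key : ∀ s ∈ Ici (0:ℝ), ∀ t ∈ Ici (0:ℝ),
      ‖(1 + t) * Real.exp (-t) - (1 + s) * Real.exp (-s)‖ ≤ 1 * ‖t - s‖ := by
    intro s hs t ht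
    refine Convex.norm_image_sub_le_of_norm_hasDerivWithin_le (s := Ici (0:ℝ))
      (f := fun t : ℝ => (1 + t) * Real.exp (-t)) (f' := fun t : ℝ => - t * Real.exp (-t))
      (fun x _ => ?_) (fun x hx => ?_) (convex_Ici 0) hs ht
    · have h1 : HasDerivAt (fun t : ℝ => (1 + t) * Real.exp (-t))
          (1 * Real.exp (-x) + (1 + x) * (Real.exp (-x) * (-1))) x :=
        ((hasDerivAt_id x).const_add 1).mul ((hasDerivAt_neg x).exp)
      convert h1.hasDerivWithinAt using 1
      ring
    · have hx0 : (0:ℝ) ≤ x := hx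
      rw [Real.norm_eq_abs, neg_mul, abs_neg, abs_of_nonneg (by positivity), Real.exp_neg]
      have h2 : x ≤ Real.exp x := by linarith [Real.add_one_le_exp x]
      have h3 := Real.exp_pos x
      rw [← div_eq_mul_inv, div_le_one h3]
      exact h2
  rw [tew_eq, tew_eq]
  have := key (max z 0) (mem_Ici.mpr (le_max_right _ _)) (max y 0) (mem_Ici.mpr (le_max_right _ _))
  rw [Real.norm_eq_abs, Real.norm_eq_abs, one_mul] at this
  refine this.trans ?_
  exact abs_max_sub_max_le_abs y z 0

theorem tew_nonneg (y : ℝ) : 0 ≤ truncExpWeight y := by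
  rw [tew_eq]
  have : (0:ℝ) ≤ max y 0 := le_max_right _ _
  positivity

theorem tew_le_one (y : ℝ) : truncExpWeight y ≤ 1 := by
  rw [tew_eq]
  set t := max y 0
  have ht : (0:ℝ) ≤ t := le_max_right _ _
  have h3 := Real.exp_pos t
  rw [Real.exp_neg, ← div_eq_mul_inv, div_le_one h3]
  linarith [Real.add_one_le_exp t]

theorem main_val_tail :
    IntegrableOn (fun x : ℝ => (1/3 + 2 * x) * Real.exp (-(3 * x))) (Ioi (1/3 : ℝ)) ∧
    ∫ x in Ioi (1/3 : ℝ), (1/3 + 2 * x) * Real.exp (-(3 * x)) = 5 / 9 * Real.exp (-1) := by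
  have hd : ∀ x ∈ Ici (1/3 : ℝ), HasDerivAt (fun x : ℝ => -((1 + 2 * x) / 3 * Real.exp (-(3 * x))))
      ((1/3 + 2 * x) * Real.exp (-(3 * x))) x := by
    intro x _
    have h1 : HasDerivAt (fun x : ℝ => (1 + 2 * x) / 3) (2 / 3) x := by
      have := (((hasDerivAt_id x).const_mul 2).const_add 1).div_const 3
      simpa using this
    have h2 : HasDerivAt (fun x : ℝ => Real.exp (-(3 * x))) (Real.exp (-(3 * x)) * (-3)) x := by
      have := (((hasDerivAt_id x).const_mul 3).neg).exp
      simpa using this
    have h3 := (h1.mul h2).neg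
    refine h3.congr_deriv ?_
    ring
  have hlim : Tendsto (fun x : ℝ => -((1 + 2 * x) / 3 * Real.exp (-(3 * x)))) atTop (𝓝 0) := by
    have h0 : Tendsto (fun x : ℝ => 3 * x) atTop atTop :=
      tendsto_id.const_mul_atTop (by norm_num)
    have h1 : Tendsto (fun x : ℝ => Real.exp (-(3 * x))) atTop (𝓝 0) :=
      Real.tendsto_exp_neg_atTop_nhds_zero.comp h0
    have h2 : Tendsto (fun x : ℝ => (3 * x) ^ 1 * Real.exp (-(3 * x))) atTop (𝓝 0) :=
      (Real.tendsto_pow_mul_exp_neg_atTop_nhds_zero 1).comp h0
    have h3 := ((h1.const_mul (1/3 : ℝ)).add (h2.const_mul (2/9 : ℝ))).neg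
    simp only [mul_zero, add_zero, neg_zero] at h3
    refine h3.congr (fun x => ?_)
    ring
  have hpos : ∀ x ∈ Ioi (1/3 : ℝ), 0 ≤ (1/3 + 2 * x) * Real.exp (-(3 * x)) := by
    intro x hx
    have : (1/3 : ℝ) < x := hx
    have : (0:ℝ) ≤ 1/3 + 2 * x := by linarith
    positivity
  refine ⟨integrableOn_Ioi_deriv_of_nonneg' hd hpos hlim, ?_⟩
  rw [integral_Ioi_of_hasDerivAt_of_nonneg' hd hpos hlim]
  norm_num

theorem main_val : ∫ x, truncExpWeight (2 * x - 2 / 3) ∂E1 = 1 - 4 / 9 * Real.exp (-(1/3)) := by
  rw [E1_integral]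
  have hsplit : Ioi (0:ℝ) = Ioc 0 (1/3) ∪ Ioi (1/3) := (Ioc_union_Ioi_eq_Ioi (by norm_num)).symm
  have hint : IntegrableOn (fun x : ℝ => truncExpWeight (2 * x - 2 / 3) * Real.exp (-x)) (Ioi 0) := by
    refine Integrable.mono' integrable_exp_neg ?_ ?_
    · exact ((tew_continuous.comp (by fun_prop)).mul (by fun_prop)).aestronglyMeasurable
    · refine Eventually.of_forall (fun x => ?_)
      rw [Real.norm_eq_abs, abs_of_nonneg (mul_nonneg (tew_nonneg _) (Real.exp_pos _).le)]
      exact mul_le_of_le_one_left (Real.exp_pos _).le (tew_le_one _)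
  have hi1 := hint.mono_set (show Ioc (0:ℝ) (1/3) ⊆ Ioi 0 from fun x hx => hx.1)
  have hi2 := hint.mono_set (show Ioi (1/3 : ℝ) ⊆ Ioi 0 from Ioi_subset_Ioi (by norm_num))
  rw [hsplit, setIntegral_union (by
    rw [Set.disjoint_left]; intro x hx hx2
    exact absurd hx.2 (not_le.mpr hx2)) measurableSet_Ioi hi1 hi2]
  have e1 : ∫ x in Ioc (0:ℝ) (1/3), truncExpWeight (2 * x - 2 / 3) * Real.exp (-x)
      = 1 - Real.exp (-(1/3)) := by
    have : ∫ x in Ioc (0:ℝ) (1/3), truncExpWeight (2 * x - 2 / 3) * Real.exp (-x)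
      = ∫ x in Ioc (0:ℝ) (1/3), Real.exp (-x) := by
      refine setIntegral_congr_fun measurableSet_Ioc (fun x hx => ?_)
      have : 2 * x - 2/3 ≤ 0 := by linarith [hx.2]
      simp only [truncExpWeight]
      rw [if_pos this, one_mul]
    rw [this, ← intervalIntegral.integral_of_le (by norm_num),
      intervalIntegral.integral_comp_neg (fun x => Real.exp x), integral_exp]
    simp
  have e2 : ∫ x in Ioi (1/3:ℝ), truncExpWeight (2 * x - 2 / 3) * Real.exp (-x)
      = 5 / 9 * Real.exp (-(1/3)) := by
    have : ∫ x in Ioi (1/3:ℝ), truncExpWeight (2 * x - 2 / 3) * Real.exp (-x)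
      = ∫ x in Ioi (1/3:ℝ), Real.exp (2/3) * ((1/3 + 2 * x) * Real.exp (-(3 * x))) := by
      refine setIntegral_congr_fun measurableSet_Ioi (fun x hx => ?_)
      have hx' : (1/3:ℝ) < x := hx
      have : ¬ (2 * x - 2/3 ≤ 0) := by linarith
      simp only [truncExpWeight]
      rw [if_neg this]
      have h1 : Real.exp (2/3) * ((1/3 + 2 * x) * Real.exp (-(3 * x)))
        = (1/3 + 2 * x) * (Real.exp (2/3) * Real.exp (-(3 * x))) := by ring
      rw [h1, mul_assoc, ← Real.exp_add, ← Real.exp_add]
      congr 1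
      · ring
      · congr 1; ring
    rw [this, integral_const_mul, main_val_tail.2]
    have : Real.exp (2/3) * (5 / 9 * Real.exp (-1)) = 5 / 9 * (Real.exp (2/3) * Real.exp (-1)) := by ring
    rw [this, ← Real.exp_add]
    norm_num
  rw [e1, e2]
  ring

/-- the exact second conjunct -/
theorem sharp : ∀ ε : ℝ, 0 < ε → ∃ (N : ℕ) (a : Fin N → ℝ), 1 ≤ N ∧ ∑ i, a i = 0 ∧
      3 / 4 * Real.exp (4 / 3) - Real.exp 1 / 3 - ε <
        Real.exp (4 / 3) / (4 / 3) *
          ∫ x in Set.pi Set.univ (fun _ : Fin N => Set.Ioi (0 : ℝ)),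
            Crest.AlgGeometry.truncExpWeight (4 / 3 + ∑ i, a i * x i) * Real.exp (-∑ i, x i) := by
  intro ε hε
  set C : ℝ := Real.exp (4/3) / (4/3) with hC
  have hCpos : 0 < C := by positivity
  set δ : ℝ := ε / C with hδ
  have hδpos : 0 < δ := by positivity
  obtain ⟨n, hn⟩ := exists_nat_gt (4 / δ ^ 2)
  have hn0 : (0:ℝ) < n := lt_of_le_of_lt (by positivity) hn
  have hn0' : (n:ℝ) ≠ 0 := hn0.ne'
  refine ⟨n + 1, Fin.cons 2 (fun _ => -2 / n), by omega, ?_, ?_⟩
  · rw [Fin.sum_univ_succ]
    simp
    field_simp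
    ring
  · set π : Measure (Fin (n+1) → ℝ) := Measure.pi (fun _ : Fin (n+1) => E1) with hπ
    rw [orthant_integral (n+1) (fun x => truncExpWeight (4 / 3 + ∑ i, (Fin.cons 2 (fun _ => -2 / (n:ℝ)) : Fin (n+1) → ℝ) i * x i))]
    set b : Fin (n+1) → ℝ := Fin.cons 0 (fun _ => -2 / (n:ℝ)) with hb
    have hpt : ∀ x : Fin (n+1) → ℝ,
        truncExpWeight (2 * x 0 - 2/3) - ((∑ i, b i * (x i - 1)) ^ 2 / (2 * δ) + δ / 2)
        ≤ truncExpWeight (4 / 3 + ∑ i, (Fin.cons 2 (fun _ => -2 / (n:ℝ)) : Fin (n+1) → ℝ) i * x i) := by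
      intro x
      set T := ∑ i, b i * (x i - 1) with hT
      have h1 : 4 / 3 + ∑ i, (Fin.cons 2 (fun _ => -2 / (n:ℝ)) : Fin (n+1) → ℝ) i * x i
          = (2 * x 0 - 2/3) + T := by
        rw [hT, hb, Fin.sum_univ_succ, Fin.sum_univ_succ]
        simp only [Fin.cons_zero, Fin.cons_succ, zero_mul, mul_sub, mul_one,
          Finset.sum_sub_distrib, Finset.sum_const, Finset.card_univ, Fintype.card_fin, nsmul_eq_mul]
        field_simp
        ring
      rw [h1]
      have h2 := tew_lip (2 * x 0 - 2/3) ((2 * x 0 - 2/3) + T)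
      have h3 : |2 * x 0 - 2/3 - ((2 * x 0 - 2/3) + T)| = |T| := by
        rw [show 2 * x 0 - 2/3 - ((2 * x 0 - 2/3) + T) = -T by ring, abs_neg]
      rw [h3] at h2
      have h4 : |T| ≤ T ^ 2 / (2 * δ) + δ / 2 := by
        have h5 : 0 ≤ (|T| - δ) ^ 2 := sq_nonneg _
        have h6 : |T| ^ 2 = T ^ 2 := sq_abs T
        rw [← h6, ← sub_nonneg]
        have : |T| ^ 2 / (2 * δ) + δ / 2 - |T| = (|T| - δ) ^ 2 / (2 * δ) := by
          field_simp
          ring
        rw [this]; positivity
      have h7 := le_abs_self (truncExpWeight (2 * x 0 - 2/3) - truncExpWeight ((2 * x 0 - 2/3) + T))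
      linarith
    have hbd : ∀ f : (Fin (n+1) → ℝ) → ℝ, Continuous f → Integrable (fun x => truncExpWeight (f x)) π := by
      intro f hf
      refine Integrable.mono' (integrable_const (1:ℝ)) (tew_continuous.comp hf).aestronglyMeasurable ?_
      refine Eventually.of_forall (fun x => ?_)
      rw [Real.norm_eq_abs, abs_of_nonneg (tew_nonneg _)]
      exact tew_le_one _
    have hi1 : Integrable (fun x : Fin (n+1) → ℝ => truncExpWeight (2 * x 0 - 2/3)) π :=
      hbd _ (by fun_prop)
    have hi2 : Integrable (fun x : Fin (n+1) → ℝ => (∑ i, b i * (x i - 1)) ^ 2 / (2 * δ) + δ / 2) π :=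
      ((pi_sq_integrable (n+1) b).div_const _).add (integrable_const _)
    have hint := integral_mono (hi1.sub hi2) (hbd (fun x => 4 / 3 + ∑ i, (Fin.cons 2 (fun _ => -2 / (n:ℝ)) : Fin (n+1) → ℝ) i * x i) (by fun_prop)) hpt
    have hval : ∫ x, (truncExpWeight (2 * x 0 - 2/3) - ((∑ i, b i * (x i - 1)) ^ 2 / (2 * δ) + δ / 2)) ∂π
        = (1 - 4 / 9 * Real.exp (-(1/3))) - ((∑ i, b i ^ 2) / (2 * δ) + δ / 2) := by
      rw [integral_sub hi1 hi2, integral_add ((pi_sq_integrable (n+1) b).div_const _) (integrable_const _),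
        integral_div, pi_sq, hπ,
        integral_comp_eval (μ := fun _ : Fin (n+1) => E1) (i := 0)
          (f := fun x : ℝ => truncExpWeight (2 * x - 2 / 3))
          (tew_continuous.comp (by fun_prop)).aestronglyMeasurable, main_val]
      simp
    have hsum : ∑ i, b i ^ 2 = 4 / n := by
      rw [hb, Fin.sum_univ_succ]
      simp
      field_simp
      ring
    have hfin : (1 - 4 / 9 * Real.exp (-(1/3))) - ((4 / n) / (2 * δ) + δ / 2)
        ≤ ∫ x, truncExpWeight (4 / 3 + ∑ i, (Fin.cons 2 (fun _ => -2 / (n:ℝ)) : Fin (n+1) → ℝ) i * x i) ∂π := by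
      rw [← hsum, ← hval]
      exact hint
    have hsmall : (4 / n) / (2 * δ) < δ / 2 := by
      rw [div_lt_iff₀ (by positivity), div_lt_iff₀ hn0]
      rw [div_lt_iff₀ (by positivity)] at hn
      nlinarith
    have hCδ : C * δ = ε := by rw [hδ]; field_simp
    have hCM : C * (1 - 4 / 9 * Real.exp (-(1/3))) = 3 / 4 * Real.exp (4 / 3) - Real.exp 1 / 3 := by
      have h1 : Real.exp (4/3) * Real.exp (-(1/3)) = Real.exp 1 := by
        rw [← Real.exp_add]; norm_num
      rw [hC, ← h1]
      ring
    calc 3 / 4 * Real.exp (4 / 3) - Real.exp 1 / 3 - ε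
        = C * ((1 - 4 / 9 * Real.exp (-(1/3))) - δ) := by rw [mul_sub, hCM, hCδ]
      _ < C * ((1 - 4 / 9 * Real.exp (-(1/3))) - ((4 / n) / (2 * δ) + δ / 2)) := by
        apply mul_lt_mul_of_pos_left _ hCpos
        linarith
      _ ≤ _ := mul_le_mul_of_nonneg_left hfin hCpos.le

end Crest.Agent.R280
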